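import Mathlib

/-!
P359, module Rep: the numbers `∑ (-1)^i (L choose i) (A choose M-i) (B choose k+i-L)`, the
coefficients of `z^M w^k` in `(w-z)^L (1+z)^A (1+w)^B`. Their two recurrences are the raising and
the lowering relations of the coupling.
-/

noncomputable section

namespace Vale.Agent.P359.Rep

open Finset

/-- Binomial coefficient with an integer lower index. -/
def chz (n : ℕ) (x : ℤ) : ℤ := if 0 ≤ x then (n.choose x.toNat : ℤ) else 0

theorem chz_natCast (n k : ℕ) : chz n (k : ℤ) = n.choose k := by simp [chz]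

theorem chz_neg (n : ℕ) {x : ℤ} (h : x < 0) : chz n x = 0 := if_neg (not_le.2 h)

theorem chz_succ (n : ℕ) (x : ℤ) : chz (n + 1) x = chz n x + chz n (x - 1) := by
  rcases lt_trichotomy x 0 with h | rfl | h
  · rw [chz_neg _ h, chz_neg _ h, chz_neg _ (by omega), add_zero]
  · simp [chz]
  · obtain ⟨k, rfl⟩ : ∃ k : ℕ, x = (k + 1 : ℕ) := ⟨x.toNat - 1, by omega⟩
    rw [show ((k + 1 : ℕ) : ℤ) - 1 = (k : ℤ) by push_cast; ring, chz_natCast, chz_natCast,
      chz_natCast, Nat.choose_succ_succ]
    push_cast; ring

/-- The coefficient of `z^M w^k` in `(w-z)^L (1+z)^A (1+w)^B`. -/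
def coef (L A B : ℕ) (M k : ℤ) : ℤ :=
  ∑ i ∈ range (L + 1), (-1) ^ i * (L.choose i : ℤ) * chz A (M - i) * chz B (k + i - L)

theorem coef_succ_A (L A B : ℕ) (M k : ℤ) :
    coef L (A + 1) B M k = coef L A B M k + coef L A B (M - 1) k := by
  rw [coef, coef, coef, ← sum_add_distrib]
  refine sum_congr rfl fun i _ => ?_
  rw [chz_succ, show M - 1 - (i : ℤ) = M - i - 1 by ring]
  ring

theorem coef_succ_B (L A B : ℕ) (M k : ℤ) :
    coef L A (B + 1) M k = coef L A B M k + coef L A B M (k - 1) := by
  rw [coef, coef, coef, ← sum_add_distrib]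
  refine sum_congr rfl fun i _ => ?_
  rw [chz_succ, show k - 1 + (i : ℤ) - L = k + i - L - 1 by ring]
  ring

theorem coef_succ_L (L A B : ℕ) (M k : ℤ) :
    coef (L + 1) A B M k = coef L A B M (k - 1) - coef L A B (M - 1) k := by
  set f : ℕ → ℤ := fun i => (-1) ^ i * chz A (M - i) * chz B (k + i - (L + 1 : ℕ)) with hf
  have h0 : coef L A B M (k - 1) = ∑ i ∈ range (L + 1), (L.choose i : ℤ) * f i := by
    refine sum_congr rfl fun i _ => ?_
    simp only [hf]
    rw [show k - 1 + (i : ℤ) - L = k + i - ((L + 1 : ℕ) : ℤ) by push_cast; ring]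
    ring
  have h1 : coef L A B (M - 1) k = -∑ i ∈ range (L + 1), (L.choose i : ℤ) * f (i + 1) := by
    rw [← sum_neg_distrib]
    refine sum_congr rfl fun i _ => ?_
    simp only [hf, pow_succ]
    rw [show M - ((i + 1 : ℕ) : ℤ) = M - 1 - i by push_cast; ring,
      show k + ((i + 1 : ℕ) : ℤ) - ((L + 1 : ℕ) : ℤ) = k + i - L by push_cast; ring]
    ring
  have h2 : ∑ i ∈ range (L + 1), (L.choose (i + 1) : ℤ) * f (i + 1) + f 0 =
      ∑ i ∈ range (L + 1), (L.choose i : ℤ) * f i := by
    have e := sum_range_succ' (fun i => (L.choose i : ℤ) * f i) (L + 1)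
    rw [sum_range_succ (fun i => (L.choose i : ℤ) * f i) (L + 1)] at e
    simp only [Nat.choose_succ_self, Nat.choose_zero_right, Nat.cast_zero, Nat.cast_one, zero_mul,
      add_zero, one_mul] at e
    exact e.symm
  rw [h0, h1, ← h2, sub_neg_eq_add, coef, sum_range_succ']
  simp only [Nat.choose_succ_succ, Nat.choose_zero_right, hf]
  push_cast
  simp only [add_mul, mul_add, sum_add_distrib, Nat.succ_eq_add_one]
  ring_nf
  simp only [show ∀ x : ℤ, x + k - (L : ℤ) = k - L + x from fun x => by ring]
  ring

theorem coef_zero (M k : ℤ) : coef 0 0 0 M k = if M = 0 ∧ k = 0 then 1 else 0 := by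
  have h : ∀ x : ℤ, chz 0 x = if x = 0 then 1 else 0 := fun x => by
    rcases lt_trichotomy x 0 with h | rfl | h
    · rw [chz_neg _ h, if_neg h.ne]
    · simp [chz]
    · rw [if_neg h.ne', chz, if_pos h.le, Nat.choose_eq_zero_of_lt (by omega)]; rfl
  simp only [coef, zero_add, sum_range_one, pow_zero, Nat.choose_zero_right, Nat.cast_one,
    Nat.cast_zero, sub_zero, add_zero, one_mul, h]
  split_ifs with h1 h2 h3 <;> simp_all

/-- The raising relation. -/
theorem coef_raise (L A B : ℕ) (M k : ℤ) :
    (M + 1) * coef L A B (M + 1) k + (k + 1) * coef L A B M (k + 1) +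
      (M + k - (L + A + B : ℕ)) * coef L A B M k = 0 := by
  induction L generalizing M k with
  | zero =>
    induction A generalizing M k with
    | zero =>
      induction B generalizing M k with
      | zero =>
        simp only [coef_zero]
        split_ifs <;> push_cast <;> omega
      | succ B ih =>
        simp only [coef_succ_B]
        have h1 := ih M k
        have h2 := ih M (k - 1)
        push_cast at h1 h2 ⊢
        ring_nf at h1 h2 ⊢
        linarith
    | succ A ih =>
      simp only [coef_succ_A]
      have h1 := ih M k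
      have h2 := ih (M - 1) k
      push_cast at h1 h2 ⊢
      ring_nf at h1 h2 ⊢
      linarith
  | succ L ih =>
    simp only [coef_succ_L]
    have h1 := ih M (k - 1)
    have h2 := ih (M - 1) k
    push_cast at h1 h2 ⊢
    ring_nf at h1 h2 ⊢
    linarith

/-- The lowering relation, `a = L + A` and `b = L + B`. -/
theorem coef_lower (L A B : ℕ) (M k : ℤ) :
    ((L + A : ℕ) + 1 - M) * coef L A B (M - 1) k + ((L + B : ℕ) + 1 - k) * coef L A B M (k - 1) -
      (M + k - L) * coef L A B M k = 0 := by
  induction L generalizing M k with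
  | zero =>
    induction A generalizing M k with
    | zero =>
      induction B generalizing M k with
      | zero =>
        simp only [coef_zero]
        split_ifs <;> push_cast <;> omega
      | succ B ih =>
        simp only [coef_succ_B]
        have h1 := ih M k
        have h2 := ih M (k - 1)
        push_cast at h1 h2 ⊢
        ring_nf at h1 h2 ⊢
        linarith
    | succ A ih =>
      simp only [coef_succ_A]
      have h1 := ih M k
      have h2 := ih (M - 1) k
      push_cast at h1 h2 ⊢
      ring_nf at h1 h2 ⊢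
      linarith
  | succ L ih =>
    simp only [coef_succ_L]
    have h1 := ih M (k - 1)
    have h2 := ih (M - 1) k
    push_cast at h1 h2 ⊢
    ring_nf at h1 h2 ⊢
    linarith

end Vale.Agent.P359.Rep
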