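import Vale.Agent.P359.Rep.Coup

/-!
# P359: the contraction is equivariant, so it is diagonal in channels
-/

noncomputable section

namespace P359

open Finset

/-- Inner product of two kernels on `V a ⊗ V b`. -/
def pairIp (a b : ℕ) (f g : ℕ → ℕ → ℝ) : ℝ :=
  ∑ M ∈ range (a + 1), ∑ k ∈ range (b + 1), f M k * g M k

/-- Lowering on `V a ⊗ V b`. -/
def pairLow (a b : ℕ) (f : ℕ → ℕ → ℝ) (M k : ℕ) : ℝ :=
  (∑ M' ∈ range (a + 1), f M' k * opE a M M') + ∑ k' ∈ range (b + 1), f M k' * opE b k k'

/-- Raising on `V a ⊗ V b`. -/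
def pairUp (a b : ℕ) (f : ℕ → ℕ → ℝ) (M k : ℕ) : ℝ :=
  (∑ M' ∈ range (a + 1), f M' k * opE a M' M) + ∑ k' ∈ range (b + 1), f M k' * opE b k' k

theorem pairIp_adjoint (a b : ℕ) (f g : ℕ → ℕ → ℝ) :
    pairIp a b (pairLow a b f) g = pairIp a b f (pairUp a b g) :=
  adjoint_step a b f g

theorem pairIp_comm (a b : ℕ) (f g : ℕ → ℕ → ℝ) : pairIp a b f g = pairIp a b g f :=
  sum_congr rfl fun _ _ => sum_congr rfl fun _ _ => mul_comm _ _

theorem pairIp_sum_right {ι : Type*} (a b : ℕ) (t : Finset ι) (f : ℕ → ℕ → ℝ)
    (g : ι → ℕ → ℕ → ℝ) :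
    pairIp a b f (fun M k => ∑ i ∈ t, g i M k) = ∑ i ∈ t, pairIp a b f (g i) := by
  simp only [pairIp, mul_sum]
  rw [sum_congr rfl fun M _ => sum_comm, sum_comm]

theorem pairIp_smul_right (a b : ℕ) (r : ℝ) (f g : ℕ → ℕ → ℝ) :
    pairIp a b f (fun M k => r * g M k) = r * pairIp a b f g := by
  simp only [pairIp, mul_sum]
  exact sum_congr rfl fun M _ => sum_congr rfl fun k _ => by ring

theorem coup_eq_zero_of_not {a b L J M k : ℕ} (h : ¬(L ≤ a ∧ L ≤ b)) : coup a b L J M k = 0 :=
  if_neg fun h' => h ⟨h'.1, h'.2.1⟩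

theorem coup_up_fun {a b L : ℕ} (ha : L ≤ a) (hb : L ≤ b) (J M k : ℕ) :
    pairUp a b (coup a b L J) M k =
      ∑ J' ∈ range (a + b - 2 * L + 1), opE (a + b - 2 * L) J J' * coup a b L J' M k :=
  (coup_raise ha hb J M k).symm

theorem coup_low_fun {a b L : ℕ} (ha : L ≤ a) (hb : L ≤ b) (J M k : ℕ) :
    pairLow a b (coup a b L J) M k =
      ∑ J' ∈ range (a + b - 2 * L + 1), opE (a + b - 2 * L) J' J * coup a b L J' M k :=
  (coup_lower ha hb J M k).symm

/-- Expansion of a kernel in channels. -/
theorem pair_expand {a b : ℕ} (f : ℕ → ℕ → ℝ) {M k : ℕ} (hM : M ≤ a) (hk : k ≤ b) :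
    f M k = ∑ L ∈ range (b + 1), ∑ J ∈ range (a + b - 2 * L + 1),
      coup a b L J M k * pairIp a b (coup a b L J) f := by
  symm
  calc ∑ L ∈ range (b + 1), ∑ J ∈ range (a + b - 2 * L + 1),
        coup a b L J M k * pairIp a b (coup a b L J) f
      = ∑ M' ∈ range (a + 1), ∑ k' ∈ range (b + 1),
          (∑ L ∈ range (b + 1), ∑ J ∈ range (a + b - 2 * L + 1),
            coup a b L J M k * coup a b L J M' k') * f M' k' := by
        simp only [pairIp, mul_sum, sum_mul]
        rw [sum_congr rfl fun L _ => sum_comm, sum_comm]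
        refine sum_congr rfl fun M' _ => ?_
        rw [sum_congr rfl fun L _ => sum_comm, sum_comm]
        exact sum_congr rfl fun k' _ => sum_congr rfl fun L _ => sum_congr rfl fun J _ => by ring
    _ = _ := by
        rw [sum_eq_single M, sum_eq_single k]
        · rw [coup_complete hM hk, if_pos ⟨rfl, rfl⟩, one_mul]
        · intro k' _ hk'
          rw [coup_complete hM hk, if_neg fun h => hk' h.2.symm, zero_mul]
        · intro h
          exact absurd (mem_range.2 (Nat.lt_succ_of_le hk)) h
        · intro M' _ hM'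
          exact sum_eq_zero fun k' _ => by
            rw [coup_complete hM hk, if_neg fun h => hM' h.1.symm, zero_mul]
        · intro h
          exact absurd (mem_range.2 (Nat.lt_succ_of_le hM)) h

/-- A weighted sum over a pair of weights with fixed total. -/
theorem pair_sum_antidiag (a b t : ℕ) (g : ℕ → ℕ → ℝ) (hw : ∀ M k, M + k ≠ t → g M k = 0)
    (ha : ∀ M k, a < M → g M k = 0) (hb : ∀ M k, b < k → g M k = 0) :
    ∑ M ∈ range (a + 1), ∑ k ∈ range (b + 1), g M k = ∑ k ∈ range (t + 1), g (t - k) k := by
  rw [sum_comm]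
  have h1 : ∀ k ∈ range (b + 1), ∑ M ∈ range (a + 1), g M k = if k ≤ t then g (t - k) k else 0 := by
    intro k _
    by_cases hk : k ≤ t
    · rw [if_pos hk, sum_eq_single (t - k)]
      · intro M _ hM
        exact hw M k (by omega)
      · intro h
        rw [mem_range, not_lt] at h
        exact ha _ k (by omega)
    · rw [if_neg hk]
      exact sum_eq_zero fun M _ => hw M k (by omega)
  rw [sum_congr rfl h1, ← sum_filter]
  refine sum_subset (fun k hk => ?_) (fun k hk hk' => hb _ k ?_)
  · simp only [mem_filter, mem_range] at hk ⊢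
    omega
  · simp only [mem_filter, mem_range] at hk hk'
    omega

/-- The crossed kernel applied to a vector of the second pair. -/
def contrApply (s b b' n n' : ℕ) (f : ℕ → ℕ → ℝ) (J k' : ℕ) : ℝ :=
  pairIp (s + b' - 2 * n') b (fun J' k => contr s b b' n n' J k' J' k) f

/-- The block of the crossed kernel between the channels `l` and `l'`. -/
def block (s b b' n n' l l' U V : ℕ) : ℝ :=
  pairIp (s + b - 2 * n) b' (coup (s + b - 2 * n) b' l U)
    (contrApply s b b' n n' (coup (s + b' - 2 * n') b l' V))

theorem contrApply_sum {ι : Type*} (s b b' n n' : ℕ) (t : Finset ι) (r : ι → ℝ)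
    (g : ι → ℕ → ℕ → ℝ) :
    contrApply s b b' n n' (fun M k => ∑ i ∈ t, r i * g i M k) =
      fun J k' => ∑ i ∈ t, r i * contrApply s b b' n n' (g i) J k' := by
  funext J k'
  unfold contrApply
  rw [pairIp_sum_right]
  exact sum_congr rfl fun i _ => pairIp_smul_right _ _ _ _ _

/-- The crossed kernel commutes with the raising operators. -/
theorem contr_equivariant {s b b' n n' : ℕ} (hns : n ≤ s) (hnb : n ≤ b) (hn's : n' ≤ s)
    (hn'b : n' ≤ b') (J k' J' k : ℕ) :
    pairLow (s + b - 2 * n) b' (fun x y => contr s b b' n n' x y J' k) J k' =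
      pairUp (s + b' - 2 * n') b (fun x y => contr s b b' n n' J k' x y) J' k := by
  have e1 := fun S => coup_raise (a := s) (b := b) (L := n) hns hnb J S k
  have e2 := fun S => coup_lower (a := s) (b := b') (L := n') hn's hn'b J' S k'
  simp only [pairLow, pairUp, contr, sum_mul]
  rw [sum_comm, sum_comm (s := range (b' + 1)), sum_comm (s := range (s + b' - 2 * n' + 1)),
    sum_comm (s := range (b + 1))]
  have h1 : ∀ S, ∑ x ∈ range (s + b - 2 * n + 1),
      coup s b n x S k * coup s b' n' J' S k' * opE (s + b - 2 * n) J x =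
      ((∑ S' ∈ range (s + 1), coup s b n J S' k * opE s S' S) +
        ∑ x ∈ range (b + 1), coup s b n J S x * opE b x k) * coup s b' n' J' S k' := by
    intro S
    rw [← e1 S, sum_mul]
    exact sum_congr rfl fun x _ => by ring
  have h2 : ∀ S, ∑ x ∈ range (s + b' - 2 * n' + 1),
      coup s b n J S k * coup s b' n' x S k' * opE (s + b' - 2 * n') x J' =
      coup s b n J S k * ((∑ S' ∈ range (s + 1), coup s b' n' J' S' k' * opE s S S') +
        ∑ x ∈ range (b' + 1), coup s b' n' J' S x * opE b' k' x) := by
    intro S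
    rw [← e2 S, mul_sum]
    exact sum_congr rfl fun x _ => by ring
  rw [sum_congr rfl fun S _ => h1 S, sum_congr rfl fun S _ => h2 S]
  simp only [add_mul, mul_add, sum_add_distrib, sum_mul, mul_sum]
  rw [sum_comm (s := range (s + 1)) (t := range (s + 1))]
  have r1 : ∀ x y, coup s b n J x k * opE s x y * coup s b' n' J' y k' =
      coup s b n J x k * (coup s b' n' J' y k' * opE s x y) := fun x y => by ring
  have r2 : ∀ S x, coup s b n J S k * (coup s b' n' J' S x * opE b' k' x) =
      coup s b n J S k * coup s b' n' J' S x * opE b' k' x := fun S x => by ring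
  have r3 : ∀ S x, coup s b n J S x * opE b x k * coup s b' n' J' S k' =
      coup s b n J S x * coup s b' n' J' S k' * opE b x k := fun S x => by ring
  simp only [r1, r2, r3]
  ring

theorem contr_swap (s b b' n n' J k' J' k : ℕ) :
    contr s b b' n n' J k' J' k = contr s b' b n' n J' k J k' :=
  sum_congr rfl fun _ _ => mul_comm _ _

theorem block_swap (s b b' n n' l l' U V : ℕ) :
    block s b b' n n' l l' U V = block s b' b n' n l' l V U := by
  simp only [block, contrApply, pairIp, mul_sum]
  rw [sum_congr rfl fun J _ => sum_comm, sum_comm]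
  refine sum_congr rfl fun J' _ => ?_
  rw [sum_congr rfl fun J _ => sum_comm, sum_comm]
  refine sum_congr rfl fun k _ => sum_congr rfl fun J _ => sum_congr rfl fun k' _ => ?_
  rw [contr_swap s b' b n' n J' k J k']
  ring

theorem block_weight {s b b' n n' l l' U V : ℕ} (h : U + (l + n) ≠ V + (l' + n')) :
    block s b b' n n' l l' U V = 0 := by
  simp only [block, contrApply, pairIp]
  refine sum_eq_zero fun J _ => sum_eq_zero fun k' _ => ?_
  by_cases h1 : J + k' = U + l
  swap
  · rw [coup_eq_zero_of_weight h1, zero_mul]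
  refine mul_eq_zero_of_right _ (sum_eq_zero fun J' _ => sum_eq_zero fun k _ => ?_)
  by_cases h2 : J' + k = V + l'
  swap
  · rw [coup_eq_zero_of_weight h2, mul_zero]
  refine mul_eq_zero_of_left (sum_eq_zero fun S _ => ?_) _
  by_cases h3 : S + k = J + n
  · rw [coup_eq_zero_of_weight (a := s) (b := b') (L := n') (J := J') (by omega), mul_zero]
  · rw [coup_eq_zero_of_weight h3, zero_mul]

theorem block_out {s b b' n n' l l' U V : ℕ} (h : s + b - 2 * n + b' - 2 * l < U) :
    block s b b' n n' l l' U V = 0 := by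
  simp only [block, pairIp]
  exact sum_eq_zero fun J _ => sum_eq_zero fun k' _ => by rw [coup_eq_zero_of_fst h, zero_mul]

theorem block_out' {s b b' n n' l l' U V : ℕ} (h : s + b' - 2 * n' + b - 2 * l' < V) :
    block s b b' n n' l l' U V = 0 := by
  rw [block_swap, block_out h]

/-- The blocks commute with the raising operators. -/
theorem block_up {s b b' n n' l l' : ℕ} (hns : n ≤ s) (hnb : n ≤ b) (hn's : n' ≤ s)
    (hn'b : n' ≤ b') (hla : l ≤ s + b - 2 * n) (hlb : l ≤ b') (hl'a : l' ≤ s + b' - 2 * n')
    (hl'b : l' ≤ b) (U V : ℕ) :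
    opE (s + b - 2 * n + b' - 2 * l) U (U + 1) * block s b b' n n' l l' (U + 1) V =
      if V = 0 then 0
      else block s b b' n n' l l' U (V - 1) *
        opE (s + b' - 2 * n' + b - 2 * l') (V - 1) (V - 1 + 1) := by
  set c := s + b - 2 * n with hc
  set c' := s + b' - 2 * n' with hc'
  set K := contrApply s b b' n n' with hK
  have e1 : opE (c + b' - 2 * l) U (U + 1) * block s b b' n n' l l' (U + 1) V =
      pairIp c b' (pairUp c b' (coup c b' l U)) (K (coup c' b l' V)) := by
    rw [← sum_opE_left (c + b' - 2 * l) U (c + b' - 2 * l)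
      (fun x => block s b b' n n' l l' x V) le_rfl]
    simp only [block, ← hK, ← hc, ← hc', pairIp, coup_up_fun hla hlb, sum_mul, mul_sum]
    rw [sum_comm]
    refine sum_congr rfl fun M _ => ?_
    rw [sum_comm]
    exact sum_congr rfl fun k _ => sum_congr rfl fun x _ => by ring
  have e2 : ∀ J k', pairLow c b' (K (coup c' b l' V)) J k' =
      K (pairLow c' b (coup c' b l' V)) J k' := by
    intro J k'
    change pairLow c b' (fun x y => pairIp c' b (fun J' k => contr s b b' n n' x y J' k)
      (coup c' b l' V)) J k' = pairIp c' b (fun J' k => contr s b b' n n' J k' J' k)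
        (pairLow c' b (coup c' b l' V))
    rw [pairIp_comm c' b _ (pairLow _ _ _), pairIp_adjoint, pairIp_comm c' b (coup _ _ _ _),
      show pairUp c' b (fun J' k => contr s b b' n n' J k' J' k) =
          fun J' k => pairLow c b' (fun x y => contr s b b' n n' x y J' k) J k' from
        funext fun J' => funext fun k => (contr_equivariant hns hnb hn's hn'b J k' J' k).symm]
    simp only [pairIp, pairLow, add_mul, sum_add_distrib, sum_mul]
    congr 1
    · rw [sum_comm]
      refine sum_congr rfl fun J' _ => ?_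
      rw [sum_comm]
      exact sum_congr rfl fun k _ => sum_congr rfl fun x _ => by ring
    · rw [sum_comm]
      refine sum_congr rfl fun J' _ => ?_
      rw [sum_comm]
      exact sum_congr rfl fun k _ => sum_congr rfl fun x _ => by ring
  have e3 : pairIp c b' (pairUp c b' (coup c b' l U)) (K (coup c' b l' V)) =
      pairIp c b' (coup c b' l U) (K (pairLow c' b (coup c' b l' V))) := by
    rw [pairIp_comm, ← pairIp_adjoint, pairIp_comm,
      show pairLow c b' (K (coup c' b l' V)) = K (pairLow c' b (coup c' b l' V)) from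
        funext fun J => funext fun k' => e2 J k']
  have e4 : pairIp c b' (coup c b' l U) (K (pairLow c' b (coup c' b l' V))) =
      ∑ x ∈ range (c' + b - 2 * l' + 1),
        block s b b' n n' l l' U x * opE (c' + b - 2 * l') x V := by
    rw [show pairLow c' b (coup c' b l' V) = fun J' k =>
        ∑ x ∈ range (c' + b - 2 * l' + 1), opE (c' + b - 2 * l') x V * coup c' b l' x J' k from
      funext fun J' => funext fun k => coup_low_fun hl'a hl'b V J' k, hK, contrApply_sum,
      pairIp_sum_right]
    simp only [pairIp_smul_right]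
    refine sum_congr rfl fun x _ => ?_
    rw [mul_comm]
    rfl
  rw [e1, e3, e4]
  exact sum_opE_right _ _ _ (fun x => block s b b' n n' l l' U x) le_rfl

theorem block_eq_zero {s b b' n n' l l' : ℕ} (hns : n ≤ s) (hnb : n ≤ b) (hn's : n' ≤ s)
    (hn'b : n' ≤ b') (hla : l ≤ s + b - 2 * n) (hlb : l ≤ b') (hl'a : l' ≤ s + b' - 2 * n')
    (hl'b : l' ≤ b) (h : l + n < l' + n') : ∀ V U, block s b b' n n' l l' U V = 0 := by
  intro V
  induction V with
  | zero =>
    intro U
    by_cases hw : U + (l + n) = 0 + (l' + n')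
    swap
    · exact block_weight hw
    by_cases hU : s + b - 2 * n + b' - 2 * l < U
    · exact block_out hU
    have := block_up hns hnb hn's hn'b hla hlb hl'a hl'b (U - 1) 0
    rw [if_pos rfl, show U - 1 + 1 = U by omega, mul_eq_zero] at this
    refine this.resolve_left ?_
    have := opE_ne_zero (show U - 1 < s + b - 2 * n + b' - 2 * l by omega)
    rwa [show U - 1 + 1 = U by omega] at this
  | succ V ih =>
    intro U
    by_cases hw : U + (l + n) = V + 1 + (l' + n')
    swap
    · exact block_weight hw
    by_cases hU : s + b - 2 * n + b' - 2 * l < U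
    · exact block_out hU
    have := block_up hns hnb hn's hn'b hla hlb hl'a hl'b (U - 1) (V + 1)
    rw [if_neg (Nat.succ_ne_zero V), show U - 1 + 1 = U by omega, Nat.add_sub_cancel, ih,
      zero_mul, mul_eq_zero] at this
    refine this.resolve_left ?_
    have := opE_ne_zero (show U - 1 < s + b - 2 * n + b' - 2 * l by omega)
    rwa [show U - 1 + 1 = U by omega] at this

theorem block_zero_eq_scal (s b b' n n' l l' : ℕ) :
    block s b b' n n' l l' 0 0 = scal s b b' n n' l l' := by
  simp only [scal, block, contrApply, pairIp]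
  rw [pair_sum_antidiag _ _ l]
  · refine sum_congr rfl fun k' _ => ?_
    rw [pair_sum_antidiag _ _ l']
    · rw [mul_sum]
      exact sum_congr rfl fun k _ => by ring
    · intro M k h
      rw [coup_eq_zero_of_weight (by omega), mul_zero]
    · intro M k h
      rw [coup_eq_zero_of_left h, mul_zero]
    · intro M k h
      rw [coup_eq_zero_of_right h, mul_zero]
  · intro M k h
    rw [coup_eq_zero_of_weight (by omega), zero_mul]
  · intro M k h
    rw [coup_eq_zero_of_left h, zero_mul]
  · intro M k h
    rw [coup_eq_zero_of_right h, zero_mul]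

/-- Schur's lemma. -/
theorem block_eq {s b b' n n' l l' : ℕ} (hns : n ≤ s) (hnb : n ≤ b) (hn's : n' ≤ s)
    (hn'b : n' ≤ b') (U V : ℕ) :
    block s b b' n n' l l' U V =
      if U = V ∧ n + l = n' + l' ∧ U ≤ s + b - 2 * n + b' - 2 * l then scal s b b' n n' l l'
      else 0 := by
  by_cases hv : (l ≤ s + b - 2 * n ∧ l ≤ b') ∧ (l' ≤ s + b' - 2 * n' ∧ l' ≤ b)
  swap
  · have hz : ∀ U V, block s b b' n n' l l' U V = 0 := by
      intro U V
      rcases not_and_or.1 hv with h | h
      · simp only [block, pairIp]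
        exact sum_eq_zero fun J _ => sum_eq_zero fun k' _ => by
          rw [coup_eq_zero_of_not h, zero_mul]
      · rw [block_swap]
        simp only [block, pairIp]
        exact sum_eq_zero fun J _ => sum_eq_zero fun k' _ => by
          rw [coup_eq_zero_of_not h, zero_mul]
    rw [hz, ← block_zero_eq_scal, hz]
    simp
  obtain ⟨⟨hla, hlb⟩, hl'a, hl'b⟩ := hv
  rcases lt_trichotomy (l + n) (l' + n') with h | h | h
  · rw [block_eq_zero hns hnb hn's hn'b hla hlb hl'a hl'b h, if_neg (by omega)]
  · by_cases hU : U = V ∧ U ≤ s + b - 2 * n + b' - 2 * l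
    · rw [if_pos ⟨hU.1, by omega, hU.2⟩, ← block_zero_eq_scal, ← hU.1]
      have hm : ∀ i, i ≤ s + b - 2 * n + b' - 2 * l →
          block s b b' n n' l l' i i = block s b b' n n' l l' 0 0 := by
        intro i
        induction i with
        | zero => exact fun _ => rfl
        | succ i ih =>
          intro hi
          have hh := block_up hns hnb hn's hn'b hla hlb hl'a hl'b i (i + 1)
          rw [if_neg (Nat.succ_ne_zero i), Nat.add_sub_cancel, ih (by omega),
            show s + b' - 2 * n' + b - 2 * l' = s + b - 2 * n + b' - 2 * l by omega,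
            mul_comm (block s b b' n n' l l' 0 0)] at hh
          exact mul_left_cancel₀ (opE_ne_zero (by omega)) hh
      exact hm U hU.2
    · rw [if_neg fun h' => hU ⟨h'.1, h'.2.2⟩]
      by_cases hUV : U = V
      · exact block_out (not_le.1 fun h' => hU ⟨hUV, h'⟩)
      · exact block_weight (by omega)
  · rw [block_swap, block_eq_zero hn's hn'b hns hnb hl'a hl'b hla hlb h, if_neg (by omega)]

end P359
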