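import Vale.Agent.P359.Rep.Coup
import Vale.Agent.P359.Rep.Schur

/-!
# P359: contraction of two intertwiners, expanded in channels
-/

noncomputable section

namespace P359

open Finset

/-- Schur's lemma for the crossed kernel. -/
theorem contr_eq {s b b' n n' : ℕ} (hns : n ≤ s) (hnb : n ≤ b) (hn's : n' ≤ s) (hn'b : n' ≤ b')
    (J k' J' k : ℕ) :
    contr s b b' n n' J k' J' k =
      ∑ l ∈ range (b' + 1), ∑ l' ∈ range (b + 1),
        if n + l = n' + l' then
          scal s b b' n n' l l' *
            ∑ U ∈ range (s + b - 2 * n + b' - 2 * l + 1),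
              coup (s + b - 2 * n) b' l U J k' * coup (s + b' - 2 * n') b l' U J' k
        else 0 := by
  by_cases h1 : J ≤ s + b - 2 * n ∧ k' ≤ b' ∧ J' ≤ s + b' - 2 * n' ∧ k ≤ b
  swap
  · have hz : contr s b b' n n' J k' J' k = 0 := by
      refine sum_eq_zero fun S _ => ?_
      simp only [not_and_or, not_le] at h1
      rcases h1 with h | h | h | h
      · rw [coup_eq_zero_of_fst h, zero_mul]
      · rw [coup_eq_zero_of_right (k := k') h, mul_zero]
      · rw [coup_eq_zero_of_fst (J := J') h, mul_zero]
      · rw [coup_eq_zero_of_right (k := k) h, zero_mul]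
    rw [hz]
    symm
    refine sum_eq_zero fun l _ => sum_eq_zero fun l' _ => ?_
    split_ifs
    · refine mul_eq_zero_of_right _ (sum_eq_zero fun U _ => ?_)
      simp only [not_and_or, not_le] at h1
      rcases h1 with h | h | h | h
      · rw [coup_eq_zero_of_left (M := J) h, zero_mul]
      · rw [coup_eq_zero_of_right (k := k') h, zero_mul]
      · rw [coup_eq_zero_of_left (M := J') h, mul_zero]
      · rw [coup_eq_zero_of_right (k := k) h, mul_zero]
    · rfl
  obtain ⟨hJ, hk', hJ', hk⟩ := h1
  rw [pair_expand (fun x y => contr s b b' n n' J k' x y) hJ' hk, sum_comm]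
  refine sum_congr rfl fun l' _ => ?_
  have hexp : ∀ V, pairIp (s + b' - 2 * n') b (coup (s + b' - 2 * n') b l' V)
        (fun x y => contr s b b' n n' J k' x y) =
      ∑ l ∈ range (b' + 1), ∑ U ∈ range (s + b - 2 * n + b' - 2 * l + 1),
        coup (s + b - 2 * n) b' l U J k' * block s b b' n n' l l' U V := fun V => by
    rw [pairIp_comm]
    exact pair_expand (contrApply s b b' n n' (coup (s + b' - 2 * n') b l' V)) hJ hk'
  simp only [hexp, mul_sum]
  rw [sum_comm]
  refine sum_congr rfl fun l _ => ?_
  simp only [block_eq hns hnb hn's hn'b]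
  by_cases hl : n + l = n' + l'
  swap
  · rw [if_neg hl]
    exact sum_eq_zero fun V _ => sum_eq_zero fun U _ => by rw [if_neg fun h => hl h.2.1]; simp
  rw [if_pos hl, sum_comm]
  refine sum_congr rfl fun U hU => ?_
  rw [mem_range, Nat.lt_succ_iff] at hU
  rw [sum_eq_single U]
  · rw [if_pos ⟨rfl, hl, hU⟩]
    ring
  · intro V _ hV
    rw [if_neg fun h => hV h.1.symm]
    simp
  · intro h
    rw [mem_range, not_lt] at h
    rw [coup_eq_zero_of_fst (a := s + b' - 2 * n') (b := b) (by omega), zero_mul]

theorem scal_symm (s b b' n n' l l' : ℕ) : scal s b b' n n' l l' = scal s b' b n' n l' l := by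
  rw [← block_zero_eq_scal, block_swap, block_zero_eq_scal]

/-- The scalar as a single sum, read off at the entry `(J, k') = (0, l)`. -/
theorem scal_closed {s b b' n n' l l' : ℕ} (hns : n ≤ s) (hnb : n ≤ b) (hn's : n' ≤ s)
    (hn'b : n' ≤ b') (hlb : l ≤ b') (hlc : l ≤ s + b - 2 * n) (h : n + l = n' + l') :
    scal s b b' n n' l l' * coup (s + b - 2 * n) b' l 0 0 l =
      ∑ k ∈ range (min n l' + 1),
        coup s b n 0 (n - k) k * coup s b' n' (l' - k) (n - k) l
          * coup (s + b' - 2 * n') b l' 0 (l' - k) k := by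
  have e : contrApply s b b' n n' (coup (s + b' - 2 * n') b l' 0) 0 l =
      scal s b b' n n' l l' * coup (s + b - 2 * n) b' l 0 0 l := by
    rw [pair_expand (contrApply s b b' n n' (coup (s + b' - 2 * n') b l' 0)) (Nat.zero_le _) hlb,
      sum_eq_single l, sum_eq_single 0]
    · change _ * block s b b' n n' l l' 0 0 = _
      rw [block_zero_eq_scal]
      ring
    · intro U _ hU
      rw [coup_eq_zero_of_weight (by omega), zero_mul]
    · intro h0
      simp at h0
    · intro l2 _ hl2
      refine sum_eq_zero fun U _ => ?_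
      change _ * block s b b' n n' l2 l' U 0 = 0
      rw [block_eq hns hnb hn's hn'b, if_neg (fun hh => hl2 (by omega)), mul_zero]
    · intro h0
      exact absurd (mem_range.2 (Nat.lt_succ_of_le hlb)) h0
  rw [← e, contrApply, pairIp, pair_sum_antidiag _ _ l']
  · symm
    have hterm : ∀ k ∈ range (l' + 1),
        contr s b b' n n' 0 l (l' - k) k * coup (s + b' - 2 * n') b l' 0 (l' - k) k =
          if k ≤ n then coup s b n 0 (n - k) k * coup s b' n' (l' - k) (n - k) l
            * coup (s + b' - 2 * n') b l' 0 (l' - k) k else 0 := by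
      intro k _
      by_cases hk : k ≤ n
      · rw [if_pos hk, contr, sum_eq_single (n - k)]
        · intro S _ hS
          rw [coup_eq_zero_of_weight (by omega), zero_mul]
        · intro h0
          rw [mem_range, not_lt] at h0
          omega
      · rw [if_neg hk, contr]
        refine mul_eq_zero_of_left (sum_eq_zero fun S _ => ?_) _
        rw [coup_eq_zero_of_weight (by omega), zero_mul]
    rw [sum_congr rfl hterm, ← sum_filter]
    refine sum_congr ?_ fun _ _ => rfl
    ext k
    simp only [mem_filter, mem_range]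
    omega
  · intro M k hw
    rw [coup_eq_zero_of_weight (a := s + b' - 2 * n') (J := 0) (by omega), mul_zero]
  · intro M k hM
    rw [coup_eq_zero_of_left (a := s + b' - 2 * n') hM, mul_zero]
  · intro M k hk
    rw [coup_eq_zero_of_right (b := b) hk, mul_zero]

end P359
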