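import Vale.Agent.P359.Defs
import Vale.Agent.P359.Rep.Binom

/-!
# P359: entries of `coup`
-/

noncomputable section

namespace P359

open Finset
open Vale.Agent.P359.Rep (chz coef chz_natCast chz_neg coef_succ_A coef_succ_B coef_succ_L coef_zero
  coef_raise coef_lower)

/-- Square root of a binomial coefficient. -/
def sqC (n x : ℕ) : ℝ := Real.sqrt (n.choose x : ℝ)

theorem sqC_eq_zero {n x : ℕ} (h : n < x) : sqC n x = 0 := by
  simp [sqC, Nat.choose_eq_zero_of_lt h]

theorem sqC_pos {n x : ℕ} (h : x ≤ n) : 0 < sqC n x :=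
  Real.sqrt_pos.2 (by exact_mod_cast Nat.choose_pos h)

theorem coupRaw_eq (a b L M k : ℕ) :
    coupRaw a b L M k = (coef L (a - L) (b - L) (M : ℤ) (k : ℤ) : ℝ) := by
  rw [coupRaw, coef, Int.cast_sum]
  refine sum_congr rfl fun i _ => ?_
  push_cast
  by_cases h : i ≤ M ∧ L ≤ k + i
  · rw [if_pos h, show (M : ℤ) - i = ((M - i : ℕ) : ℤ) by omega,
      show (k : ℤ) + i - L = ((k + i - L : ℕ) : ℤ) by omega, chz_natCast, chz_natCast]
    push_cast
    ring
  · rw [if_neg h]
    rw [not_and_or, not_le, not_le] at h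
    rcases h with h | h
    · rw [chz_neg (a - L) (show (M : ℤ) - i < 0 by omega)]; simp
    · rw [chz_neg (b - L) (show (k : ℤ) + i - L < 0 by omega)]; simp

/-- The coefficient vanishes outside `[0, a] × [0, b]` and above the total degree. -/
theorem coef_eq_zero {L A B : ℕ} {M k : ℤ}
    (h : M < 0 ∨ (L + A : ℕ) < M ∨ k < 0 ∨ (L + B : ℕ) < k ∨ (L + A + B : ℕ) < M + k) :
    coef L A B M k = 0 := by
  refine sum_eq_zero fun i hi => ?_
  have hi' : i ≤ L := Nat.lt_succ_iff.1 (mem_range.1 hi)
  by_cases h1 : M - i < 0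
  · rw [chz_neg A h1]; simp
  by_cases h2 : k + i - L < 0
  · rw [chz_neg B h2]; simp
  have e1 : M - i = ((M - i).toNat : ℤ) := (Int.toNat_of_nonneg (by omega)).symm
  have e2 : k + i - L = ((k + i - L).toNat : ℤ) := (Int.toNat_of_nonneg (by omega)).symm
  rw [e1, e2, chz_natCast, chz_natCast]
  by_cases h3 : A < (M - i).toNat
  · rw [Nat.choose_eq_zero_of_lt h3]; simp
  · rw [Nat.choose_eq_zero_of_lt (show B < (k + i - L).toNat by omega)]; simp

theorem coef_swap (L A B : ℕ) (M k : ℤ) : coef L A B M k = (-1) ^ L * coef L B A k M := by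
  induction L generalizing M k with
  | zero => simp [coef, mul_comm]
  | succ L ih =>
    rw [coef_succ_L, coef_succ_L, ih, ih, pow_succ]
    ring

/-- Below the lowest weight the coefficient vanishes. -/
theorem coef_low {L A B : ℕ} {M k : ℤ} (h : M + k < L) : coef L A B M k = 0 := by
  refine sum_eq_zero fun i _ => ?_
  by_cases h1 : M - i < 0
  · rw [chz_neg A h1]; simp
  · rw [chz_neg B (show k + i - L < 0 by omega)]; simp

theorem coupN_swap (a b L : ℕ) : coupN a b L = coupN b a L := by
  rw [coupN, coupN, ← sum_range_reflect]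
  refine sum_congr rfl fun i hi => ?_
  have hi' : i ≤ L := Nat.lt_succ_iff.1 (mem_range.1 hi)
  rw [show L + 1 - 1 - i = L - i by omega, show L - (L - i) = i by omega, Nat.choose_symm hi']
  rw [mul_comm (a.choose (L - i) : ℝ)]

theorem vandermonde_succ (A B L : ℕ) :
    ∑ i ∈ range (L + 1), (A + (L - i)).choose A * (B + i).choose B = (A + B + 1 + L).choose L := by
  induction A generalizing L with
  | zero =>
    induction L with
    | zero => simp
    | succ L ih =>
      simp only [Nat.choose_zero_right, one_mul] at ih ⊢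
      rw [sum_range_succ, ih, show 0 + B + 1 + (L + 1) = (0 + B + 1 + L) + 1 by ring,
        Nat.choose_succ_succ, show 0 + B + 1 + L = B + (L + 1) by ring, Nat.choose_symm_add]
  | succ A ihA =>
    induction L with
    | zero => simp
    | succ L ih =>
      have h : ∀ i ∈ range (L + 2), (A + 1 + (L + 1 - i)).choose (A + 1) * (B + i).choose B =
          (A + (L + 1 - i)).choose A * (B + i).choose B +
            (if i ≤ L then (A + 1 + (L - i)).choose (A + 1) * (B + i).choose B else 0) := by
        intro i hi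
        have hi' : i ≤ L + 1 := Nat.lt_succ_iff.1 (mem_range.1 hi)
        rw [show A + 1 + (L + 1 - i) = (A + (L + 1 - i)) + 1 by omega, Nat.choose_succ_succ,
          add_mul]
        congr 1
        by_cases h' : i ≤ L
        · rw [if_pos h', show A + (L + 1 - i) = A + 1 + (L - i) by omega]
        · rw [if_neg h', show L + 1 - i = 0 by omega, Nat.choose_eq_zero_of_lt (by omega), zero_mul]
      rw [sum_congr rfl h, sum_add_distrib, ihA (L + 1),
        sum_range_succ (fun i => if i ≤ L then (A + 1 + (L - i)).choose (A + 1) * (B + i).choose B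
          else 0) (L + 1), if_neg (by omega), add_zero,
        sum_congr rfl fun i hi => if_pos (Nat.lt_succ_iff.1 (mem_range.1 hi)), ih,
        show A + 1 + B + 1 + (L + 1) = (A + B + 1 + (L + 1)) + 1 by ring,
        Nat.choose_succ_succ, show A + 1 + B + 1 + L = A + B + 1 + (L + 1) by ring, add_comm]

theorem coupN_closed {a b L : ℕ} (ha : L ≤ a) (hb : L ≤ b) :
    coupN a b L = ((a + b + 1 - L).choose L : ℝ) / ((a.choose L : ℝ) * (b.choose L : ℝ)) := by
  have h0 : (0 : ℝ) < (a.choose L : ℝ) * (b.choose L : ℝ) :=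
    mul_pos (by exact_mod_cast Nat.choose_pos ha) (by exact_mod_cast Nat.choose_pos hb)
  rw [eq_div_iff h0.ne', coupN, sum_mul]
  have key : ∀ i ∈ range (L + 1),
      (L.choose i : ℝ) ^ 2 / ((a.choose i : ℝ) * (b.choose (L - i) : ℝ)) *
          ((a.choose L : ℝ) * (b.choose L : ℝ)) =
        ((((a - L) + (L - i)).choose (a - L) * ((b - L) + i).choose (b - L) : ℕ) : ℝ) := by
    intro i hi
    have hi' : i ≤ L := Nat.lt_succ_iff.1 (mem_range.1 hi)
    have hai : (0 : ℝ) < a.choose i := by exact_mod_cast Nat.choose_pos (by omega)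
    have hbi : (0 : ℝ) < b.choose (L - i) := by exact_mod_cast Nat.choose_pos (by omega)
    have e1 : a.choose L * L.choose i = a.choose i * ((a - L) + (L - i)).choose (a - L) := by
      rw [Nat.choose_mul hi', show (a - L) + (L - i) = a - i by omega,
        ← Nat.choose_symm (show L - i ≤ a - i by omega), show a - i - (L - i) = a - L by omega]
    have e2 : b.choose L * L.choose i = b.choose (L - i) * ((b - L) + i).choose (b - L) := by
      rw [← Nat.choose_symm hi', Nat.choose_mul (Nat.sub_le L i),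
        show b - (L - i) = (b - L) + i by omega, show L - (L - i) = i by omega,
        Nat.choose_symm_add]
    have e1' : (a.choose L : ℝ) * L.choose i =
        a.choose i * ((a - L) + (L - i)).choose (a - L) := by exact_mod_cast e1
    have e2' : (b.choose L : ℝ) * L.choose i =
        b.choose (L - i) * ((b - L) + i).choose (b - L) := by exact_mod_cast e2
    rw [Nat.cast_mul, div_mul_eq_mul_div, div_eq_iff (mul_ne_zero hai.ne' hbi.ne')]
    linear_combination (L.choose i : ℝ) * (b.choose L : ℝ) * e1' +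
      (a.choose i : ℝ) * ((((a - L) + (L - i)).choose (a - L) : ℕ) : ℝ) * e2'
  rw [sum_congr rfl key, ← Nat.cast_sum, vandermonde_succ]
  congr 2
  omega

/-- Raw entry over the product of square roots. -/
theorem coup_eq (a b L J M k : ℕ) (ha : L ≤ a) (hb : L ≤ b) :
    coup a b L J M k = if M + k = J + L then
      (coef L (a - L) (b - L) (M : ℤ) (k : ℤ) : ℝ) /
        (sqC (a + b - 2 * L) J * sqC a M * sqC b k * Real.sqrt (coupN a b L)) else 0 := by
  rw [coup, coupRaw_eq]
  by_cases h : M + k = J + L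
  · rw [if_pos ⟨ha, hb, h⟩, if_pos h, Real.sqrt_mul (by positivity), Real.sqrt_mul (by positivity),
      Real.sqrt_mul (by positivity)]
    rfl
  · rw [if_neg fun h' => h h'.2.2, if_neg h]

theorem opE_eq (n r : ℕ) :
    opE n r (r + 1) = if r < n then Real.sqrt (((r : ℝ) + 1) * ((n - r : ℕ) : ℝ)) else 0 := by
  unfold opE
  by_cases h : r < n
  · rw [if_pos ⟨rfl, h⟩, if_pos h, show n + 1 - (r + 1) = n - r by omega]
    push_cast
    rfl
  · rw [if_neg fun h' => h h'.2, if_neg h]

theorem opE_sq {n r : ℕ} (h : r < n) :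
    opE n r (r + 1) * sqC n r = ((r : ℝ) + 1) * sqC n (r + 1) ∧
      opE n r (r + 1) * sqC n (r + 1) = ((n - r : ℕ) : ℝ) * sqC n r := by
  have e : ((n.choose (r + 1) : ℕ) : ℝ) * ((r : ℝ) + 1) = (n.choose r : ℝ) * ((n - r : ℕ) : ℝ) := by
    exact_mod_cast Nat.choose_succ_right_eq n r
  rw [opE_eq, if_pos h]
  constructor
  · rw [sqC, sqC, ← Real.sqrt_mul (by positivity),
      show ((r : ℝ) + 1) * ((n - r : ℕ) : ℝ) * (n.choose r : ℝ) =
        ((r : ℝ) + 1) ^ 2 * (n.choose (r + 1) : ℝ) by linear_combination -((r : ℝ) + 1) * e,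
      Real.sqrt_mul (by positivity), Real.sqrt_sq (by positivity)]
  · rw [sqC, sqC, ← Real.sqrt_mul (by positivity),
      show ((r : ℝ) + 1) * ((n - r : ℕ) : ℝ) * (n.choose (r + 1) : ℝ) =
        ((n - r : ℕ) : ℝ) ^ 2 * (n.choose r : ℝ) by linear_combination ((n - r : ℕ) : ℝ) * e,
      Real.sqrt_mul (by positivity), Real.sqrt_sq (by positivity)]

/-- `opE` moves `1/√C(n,x)` up. -/
theorem opE_up (n x : ℕ) (z : ℝ) :
    opE n x (x + 1) * (z / sqC n x) = ((n : ℝ) - x) * z / sqC n (x + 1) := by
  rcases lt_trichotomy x n with h | rfl | h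
  · have e := (opE_sq h).2
    rw [Nat.cast_sub h.le] at e
    have h1 := (sqC_pos h.le).ne'
    have h2 := (sqC_pos (show x + 1 ≤ n from h)).ne'
    field_simp
    linear_combination z * e
  · rw [opE_eq, if_neg (lt_irrefl _)]; simp
  · rw [opE_eq, if_neg (by omega), sqC_eq_zero (show n < x + 1 by omega)]; simp

/-- `opE` moves `1/√C(n,x+1)` down. -/
theorem opE_down (n x : ℕ) (z : ℝ) (hz : n ≤ x → z = 0) :
    opE n x (x + 1) * (z / sqC n (x + 1)) = ((x : ℝ) + 1) * z / sqC n x := by
  rcases lt_or_ge x n with h | h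
  · have e := (opE_sq h).1
    have h1 := (sqC_pos h.le).ne'
    have h2 := (sqC_pos (show x + 1 ≤ n from h)).ne'
    field_simp
    linear_combination z * e
  · simp [hz h]

theorem sum_opE_left (n x N : ℕ) (f : ℕ → ℝ) (hN : n ≤ N) :
    ∑ y ∈ range (N + 1), opE n x y * f y = opE n x (x + 1) * f (x + 1) := by
  rcases lt_or_ge x n with h | h
  · refine sum_eq_single (x + 1) (fun y _ hy => ?_) (fun hy => ?_)
    · rw [opE, if_neg fun h' => hy h'.1.symm, zero_mul]
    · exact absurd (mem_range.2 (by omega)) hy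
  · rw [opE_eq, if_neg (by omega), zero_mul]
    refine sum_eq_zero fun y _ => ?_
    rw [opE, if_neg (by omega), zero_mul]

theorem sum_opE_right (n y N : ℕ) (f : ℕ → ℝ) (hN : n ≤ N) :
    ∑ x ∈ range (N + 1), f x * opE n x y =
      if y = 0 then 0 else f (y - 1) * opE n (y - 1) (y - 1 + 1) := by
  by_cases hy : y = 0
  · rw [if_pos hy]
    exact sum_eq_zero fun x _ => by rw [opE, if_neg (by omega), mul_zero]
  · rw [if_neg hy, show y - 1 + 1 = y by omega]
    refine sum_eq_single (y - 1) (fun x _ hx => ?_) (fun h => ?_)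
    · rw [opE, if_neg (by omega), mul_zero]
    · rw [mem_range, not_lt] at h
      rw [opE, if_neg (by omega), mul_zero]

end P359
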