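import Vale.Agent.P359.Defs
import Vale.Agent.P359.Rep.Entry

/-!
# P359: the co-isometry `coup`
-/

noncomputable section

namespace P359

open Finset
open Vale.Agent.P359.Rep (coef)

/-- Closed form of the normalisation. -/
theorem coupN_eq {a b L : ℕ} (ha : L ≤ a) (hb : L ≤ b) :
    coupN a b L = ((a + b + 1 - L).choose L : ℝ) / ((a.choose L : ℝ) * (b.choose L : ℝ)) :=
  coupN_closed ha hb

theorem coupN_pos {a b L : ℕ} (ha : L ≤ a) (hb : L ≤ b) : 0 < coupN a b L := by
  rw [coupN_closed ha hb]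
  refine div_pos ?_ (mul_pos ?_ ?_) <;> exact_mod_cast Nat.choose_pos (by omega)

theorem coup_eq_zero_of_fst {a b L J M k : ℕ} (h : a + b - 2 * L < J) : coup a b L J M k = 0 := by
  by_cases hab : L ≤ a ∧ L ≤ b
  · rw [coup_eq a b L J M k hab.1 hab.2]
    split_ifs with h'
    · rw [coef_eq_zero (by omega)]; simp
    · rfl
  · exact if_neg fun h' => hab ⟨h'.1, h'.2.1⟩

theorem coup_eq_zero_of_left {a b L J M k : ℕ} (h : a < M) : coup a b L J M k = 0 := by
  by_cases hab : L ≤ a ∧ L ≤ b
  · rw [coup_eq a b L J M k hab.1 hab.2]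
    split_ifs
    · rw [coef_eq_zero (by omega)]; simp
    · rfl
  · exact if_neg fun h' => hab ⟨h'.1, h'.2.1⟩

theorem coup_eq_zero_of_right {a b L J M k : ℕ} (h : b < k) : coup a b L J M k = 0 := by
  by_cases hab : L ≤ a ∧ L ≤ b
  · rw [coup_eq a b L J M k hab.1 hab.2]
    split_ifs
    · rw [coef_eq_zero (by omega)]; simp
    · rfl
  · exact if_neg fun h' => hab ⟨h'.1, h'.2.1⟩

/-- The entry used to read off scalars. -/
theorem coup_zero_zero {a b L : ℕ} (ha : L ≤ a) (hb : L ≤ b) :
    coup a b L 0 0 L = 1 / Real.sqrt ((b.choose L : ℝ) * coupN a b L) := by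
  rw [coup_eq a b L 0 0 L ha hb, if_pos rfl]
  have hc : coef L (a - L) (b - L) ((0 : ℕ) : ℤ) (L : ℤ) = 1 := by
    rw [coef, sum_eq_single 0 (fun i _ hi => ?_) (by simp)]
    · simp [Vale.Agent.P359.Rep.chz]
    · rw [Vale.Agent.P359.Rep.chz_neg (a - L) (show ((0 : ℕ) : ℤ) - i < 0 by omega)]; simp
  rw [hc, sqC, sqC, sqC, Nat.choose_zero_right, Nat.choose_zero_right,
    Real.sqrt_mul (Nat.cast_nonneg _)]
  simp

theorem coup_swap (a b L J M k : ℕ) :
    coup a b L J M k = (-1 : ℝ) ^ L * coup b a L J k M := by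
  by_cases hab : L ≤ a ∧ L ≤ b
  · rw [coup_eq a b L J M k hab.1 hab.2, coup_eq b a L J k M hab.2 hab.1, coupN_swap b a,
      show b + a - 2 * L = a + b - 2 * L by omega, add_comm k M]
    split_ifs
    · rw [coef_swap L (a - L) (b - L)]
      push_cast
      ring
    · simp
  · rw [coup, coup, if_neg fun h' => hab ⟨h'.1, h'.2.1⟩, if_neg fun h' => hab ⟨h'.2.1, h'.1⟩,
      mul_zero]

theorem beta_swap (Q M j k : ℕ) : beta Q M k j = - beta Q M j k := by
  rw [beta, beta, coup_swap Q Q 1 M k j, pow_one, neg_one_mul]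

/-- `coup` intertwines the raising operators. -/
theorem coup_raise {a b L : ℕ} (ha : L ≤ a) (hb : L ≤ b) (J M k : ℕ) :
    (∑ J' ∈ range (a + b - 2 * L + 1), opE (a + b - 2 * L) J J' * coup a b L J' M k) =
      (∑ M' ∈ range (a + 1), coup a b L J M' k * opE a M' M) +
        ∑ k' ∈ range (b + 1), coup a b L J M k' * opE b k' k := by
  rw [sum_opE_left _ _ _ _ le_rfl, sum_opE_right _ _ _ (fun M' => coup a b L J M' k) le_rfl,
    sum_opE_right _ _ _ (fun k' => coup a b L J M k') le_rfl]
  simp only [coup_eq a b L _ _ _ ha hb]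
  set c := a + b - 2 * L with hc
  set N := Real.sqrt (coupN a b L)
  by_cases h : M + k = J + 1 + L
  swap
  · rw [if_neg h, mul_zero]
    split_ifs <;> first | omega | simp
  rw [if_pos h]
  have key := Vale.Agent.P359.Rep.coef_lower L (a - L) (b - L) (M : ℤ) (k : ℤ)
  rw [show L + (a - L) = a by omega, show L + (b - L) = b by omega,
    show (M : ℤ) + k - L = (J : ℤ) + 1 by omega] at key
  have keyR := congrArg (Int.cast (R := ℝ)) key
  push_cast at keyR
  set z : ℝ := ((coef L (a - L) (b - L) (M : ℤ) (k : ℤ) : ℤ) : ℝ)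
  have e1 : opE c J (J + 1) * (z / (sqC c (J + 1) * sqC a M * sqC b k * N)) =
      ((J : ℝ) + 1) * z / (sqC c J * sqC a M * sqC b k * N) := by
    have := opE_down c J (z / (sqC a M * sqC b k * N)) fun hJ => by
      simp only [z]
      rw [coef_eq_zero (by omega)]
      simp
    calc _ = opE c J (J + 1) * (z / (sqC a M * sqC b k * N) / sqC c (J + 1)) := by
          rw [div_div]; congr 2; ring
      _ = _ := by rw [this, mul_div_assoc', div_div]; congr 1; ring
  have e2 : (if M = 0 then (0 : ℝ) else (if M - 1 + k = J + L then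
      ((coef L (a - L) (b - L) ((M - 1 : ℕ) : ℤ) (k : ℤ) : ℤ) : ℝ) /
        (sqC c J * sqC a (M - 1) * sqC b k * N) else 0) * opE a (M - 1) (M - 1 + 1)) =
      ((a : ℝ) + 1 - M) * ((coef L (a - L) (b - L) ((M : ℤ) - 1) (k : ℤ) : ℤ) : ℝ) /
        (sqC c J * sqC a M * sqC b k * N) := by
    by_cases hM : M = 0
    · rw [if_pos hM, coef_eq_zero (Or.inl (by omega))]; simp
    · obtain ⟨m, rfl⟩ := Nat.exists_eq_succ_of_ne_zero hM
      rw [if_neg hM, if_pos (by omega)]
      simp only [Nat.succ_eq_add_one, Nat.add_sub_cancel]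
      rw [show ((m + 1 : ℕ) : ℤ) - 1 = (m : ℤ) by push_cast; ring]
      set w : ℝ := ((coef L (a - L) (b - L) (m : ℤ) (k : ℤ) : ℤ) : ℝ)
      have := opE_up a m (w / (sqC c J * sqC b k * N))
      calc _ = opE a m (m + 1) * (w / (sqC c J * sqC b k * N) / sqC a m) := by
            rw [div_div, mul_comm]; congr 2; ring
        _ = _ := by rw [this, mul_div_assoc', div_div]; push_cast; congr 1 <;> ring
  have e3 : (if k = 0 then (0 : ℝ) else (if M + (k - 1) = J + L then
      ((coef L (a - L) (b - L) (M : ℤ) ((k - 1 : ℕ) : ℤ) : ℤ) : ℝ) /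
        (sqC c J * sqC a M * sqC b (k - 1) * N) else 0) * opE b (k - 1) (k - 1 + 1)) =
      ((b : ℝ) + 1 - k) * ((coef L (a - L) (b - L) (M : ℤ) ((k : ℤ) - 1) : ℤ) : ℝ) /
        (sqC c J * sqC a M * sqC b k * N) := by
    by_cases hk : k = 0
    · rw [if_pos hk, coef_eq_zero (Or.inr (Or.inr (Or.inl (by omega))))]; simp
    · obtain ⟨m, rfl⟩ := Nat.exists_eq_succ_of_ne_zero hk
      rw [if_neg hk, if_pos (by omega)]
      simp only [Nat.succ_eq_add_one, Nat.add_sub_cancel]
      rw [show ((m + 1 : ℕ) : ℤ) - 1 = (m : ℤ) by push_cast; ring]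
      set w : ℝ := ((coef L (a - L) (b - L) (M : ℤ) (m : ℤ) : ℤ) : ℝ)
      have := opE_up b m (w / (sqC c J * sqC a M * N))
      calc _ = opE b m (m + 1) * (w / (sqC c J * sqC a M * N) / sqC b m) := by
            rw [div_div, mul_comm]; congr 2; ring
        _ = _ := by rw [this, mul_div_assoc', div_div]; push_cast; congr 1 <;> ring
  rw [e1, e2, e3, ← add_div]
  congr 1
  linear_combination -keyR

/-- `coup` intertwines the lowering operators. -/
theorem coup_lower {a b L : ℕ} (ha : L ≤ a) (hb : L ≤ b) (J M k : ℕ) :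
    (∑ J' ∈ range (a + b - 2 * L + 1), opE (a + b - 2 * L) J' J * coup a b L J' M k) =
      (∑ M' ∈ range (a + 1), coup a b L J M' k * opE a M M') +
        ∑ k' ∈ range (b + 1), coup a b L J M k' * opE b k k' := by
  rw [sum_congr rfl fun J' _ => mul_comm (opE (a + b - 2 * L) J' J) _,
    sum_opE_right _ _ _ (fun J' => coup a b L J' M k) le_rfl,
    sum_congr rfl fun M' _ => mul_comm (coup a b L J M' k) _,
    sum_opE_left _ _ _ (fun M' => coup a b L J M' k) le_rfl,
    sum_congr rfl fun k' _ => mul_comm (coup a b L J M k') _,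
    sum_opE_left _ _ _ (fun k' => coup a b L J M k') le_rfl]
  simp only [coup_eq a b L _ _ _ ha hb]
  set c := a + b - 2 * L with hc
  set N := Real.sqrt (coupN a b L)
  by_cases h : M + k + 1 = J + L
  swap
  · rw [if_neg (show ¬(M + 1 + k = J + L) by omega), if_neg (show ¬(M + (k + 1) = J + L) by omega)]
    split_ifs <;> first | omega | simp
  rw [if_pos (show M + 1 + k = J + L by omega), if_pos (show M + (k + 1) = J + L by omega)]
  have key := Vale.Agent.P359.Rep.coef_raise L (a - L) (b - L) (M : ℤ) (k : ℤ)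
  rw [show (M : ℤ) + k - (L + (a - L) + (b - L) : ℕ) = (J : ℤ) - 1 - c by omega,
    show (M : ℤ) + 1 = ((M + 1 : ℕ) : ℤ) by push_cast; ring,
    show (k : ℤ) + 1 = ((k + 1 : ℕ) : ℤ) by push_cast; ring] at key
  have keyR := congrArg (Int.cast (R := ℝ)) key
  push_cast at keyR
  have e1 : (if J = 0 then (0 : ℝ) else (if M + k = J - 1 + L then
      ((coef L (a - L) (b - L) (M : ℤ) (k : ℤ) : ℤ) : ℝ) /
        (sqC c (J - 1) * sqC a M * sqC b k * N) else 0) * opE c (J - 1) (J - 1 + 1)) =
      ((c : ℝ) + 1 - J) * ((coef L (a - L) (b - L) (M : ℤ) (k : ℤ) : ℤ) : ℝ) /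
        (sqC c J * sqC a M * sqC b k * N) := by
    by_cases hJ : J = 0
    · have hz : coef L (a - L) (b - L) (M : ℤ) (k : ℤ) = 0 := coef_low (by omega)
      rw [if_pos hJ, hz]; simp
    · obtain ⟨m, rfl⟩ := Nat.exists_eq_succ_of_ne_zero hJ
      rw [if_neg hJ, if_pos (by omega)]
      simp only [Nat.succ_eq_add_one, Nat.add_sub_cancel]
      set w : ℝ := ((coef L (a - L) (b - L) (M : ℤ) (k : ℤ) : ℤ) : ℝ)
      have := opE_up c m (w / (sqC a M * sqC b k * N))
      calc _ = opE c m (m + 1) * (w / (sqC a M * sqC b k * N) / sqC c m) := by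
            rw [div_div, mul_comm]; congr 2; ring
        _ = _ := by rw [this, mul_div_assoc', div_div]; push_cast; congr 1 <;> ring
  have e2 : opE a M (M + 1) * (((coef L (a - L) (b - L) ((M + 1 : ℕ) : ℤ) (k : ℤ) : ℤ) : ℝ) /
      (sqC c J * sqC a (M + 1) * sqC b k * N)) =
      ((M : ℝ) + 1) * ((coef L (a - L) (b - L) ((M + 1 : ℕ) : ℤ) (k : ℤ) : ℤ) : ℝ) /
        (sqC c J * sqC a M * sqC b k * N) := by
    set w : ℝ := ((coef L (a - L) (b - L) ((M + 1 : ℕ) : ℤ) (k : ℤ) : ℤ) : ℝ)
    have := opE_down a M (w / (sqC c J * sqC b k * N)) fun hM => by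
      simp only [w]
      rw [coef_eq_zero (by omega)]
      simp
    calc _ = opE a M (M + 1) * (w / (sqC c J * sqC b k * N) / sqC a (M + 1)) := by
          rw [div_div]; congr 2; ring
      _ = _ := by rw [this, mul_div_assoc', div_div]; congr 1; ring
  have e3 : opE b k (k + 1) * (((coef L (a - L) (b - L) (M : ℤ) ((k + 1 : ℕ) : ℤ) : ℤ) : ℝ) /
      (sqC c J * sqC a M * sqC b (k + 1) * N)) =
      ((k : ℝ) + 1) * ((coef L (a - L) (b - L) (M : ℤ) ((k + 1 : ℕ) : ℤ) : ℤ) : ℝ) /
        (sqC c J * sqC a M * sqC b k * N) := by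
    set w : ℝ := ((coef L (a - L) (b - L) (M : ℤ) ((k + 1 : ℕ) : ℤ) : ℤ) : ℝ)
    have := opE_down b k (w / (sqC c J * sqC a M * N)) fun hk => by
      simp only [w]
      rw [coef_eq_zero (by omega)]
      simp
    calc _ = opE b k (k + 1) * (w / (sqC c J * sqC a M * N) / sqC b (k + 1)) := by
          rw [div_div]; congr 2; ring
      _ = _ := by rw [this, mul_div_assoc', div_div]; congr 1; ring
  rw [e1, e2, e3, ← add_div]
  congr 1
  push_cast at keyR ⊢
  linear_combination -keyR

theorem coup_eq_zero_of_weight {a b L J M k : ℕ} (h : M + k ≠ J + L) : coup a b L J M k = 0 :=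
  if_neg fun h' => h h'.2.2

/-- The inner product of two rows. -/
def rowIp (a b L J L' J' : ℕ) : ℝ :=
  ∑ M ∈ range (a + 1), ∑ k ∈ range (b + 1), coup a b L J M k * coup a b L' J' M k

theorem rowIp_comm (a b L J L' J' : ℕ) : rowIp a b L J L' J' = rowIp a b L' J' L J :=
  sum_congr rfl fun _ _ => sum_congr rfl fun _ _ => mul_comm _ _

/-- Raising and lowering are adjoint. -/
theorem adjoint_step (a b : ℕ) (f g : ℕ → ℕ → ℝ) :
    ∑ M ∈ range (a + 1), ∑ k ∈ range (b + 1),
        ((∑ M' ∈ range (a + 1), f M' k * opE a M M') +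
          ∑ k' ∈ range (b + 1), f M k' * opE b k k') * g M k =
      ∑ M ∈ range (a + 1), ∑ k ∈ range (b + 1),
        f M k * ((∑ M' ∈ range (a + 1), g M' k * opE a M' M) +
          ∑ k' ∈ range (b + 1), g M k' * opE b k' k) := by
  simp only [add_mul, mul_add, sum_add_distrib, sum_mul, mul_sum]
  congr 1
  · rw [sum_congr rfl fun M _ => sum_comm, sum_comm]
    refine sum_congr rfl fun M _ => ?_
    rw [sum_comm]
    exact sum_congr rfl fun k _ => sum_congr rfl fun M' _ => by ring
  · refine sum_congr rfl fun M _ => ?_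
    rw [sum_comm]
    exact sum_congr rfl fun k _ => sum_congr rfl fun k' _ => by ring

theorem rowIp_step {a b L L' : ℕ} (ha : L ≤ a) (hb : L ≤ b) (ha' : L' ≤ a) (hb' : L' ≤ b)
    (J J' : ℕ) :
    opE (a + b - 2 * L) J (J + 1) * rowIp a b L J L' J' =
      opE (a + b - 2 * L') J' (J' + 1) * rowIp a b L (J + 1) L' (J' + 1) := by
  calc opE (a + b - 2 * L) J (J + 1) * rowIp a b L J L' J'
      = ∑ M ∈ range (a + 1), ∑ k ∈ range (b + 1),
          ((∑ M' ∈ range (a + 1), coup a b L (J + 1) M' k * opE a M M') +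
            ∑ k' ∈ range (b + 1), coup a b L (J + 1) M k' * opE b k k') * coup a b L' J' M k := by
        rw [rowIp, mul_sum]
        refine sum_congr rfl fun M _ => ?_
        rw [mul_sum]
        refine sum_congr rfl fun k _ => ?_
        rw [← coup_lower ha hb (J + 1) M k,
          sum_congr rfl fun x _ => mul_comm (opE (a + b - 2 * L) x (J + 1)) _,
          sum_opE_right _ _ _ (fun x => coup a b L x M k) le_rfl, if_neg (Nat.succ_ne_zero J),
          Nat.add_sub_cancel]
        ring
    _ = ∑ M ∈ range (a + 1), ∑ k ∈ range (b + 1),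
          coup a b L (J + 1) M k * ((∑ M' ∈ range (a + 1), coup a b L' J' M' k * opE a M' M) +
            ∑ k' ∈ range (b + 1), coup a b L' J' M k' * opE b k' k) := adjoint_step a b _ _
    _ = _ := by
        rw [rowIp, mul_sum]
        refine sum_congr rfl fun M _ => ?_
        rw [mul_sum]
        refine sum_congr rfl fun k _ => ?_
        rw [← coup_raise ha' hb' J' M k, sum_opE_left _ _ _ _ le_rfl]
        ring

/-- The first row of a channel is orthogonal to all later rows. -/
theorem rowIp_top {a b L L' : ℕ} (ha : L ≤ a) (hb : L ≤ b) (ha' : L' ≤ a) (hb' : L' ≤ b) {J : ℕ}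
    (hJ : J < a + b - 2 * L) : rowIp a b L (J + 1) L' 0 = 0 := by
  have h : opE (a + b - 2 * L) J (J + 1) * rowIp a b L (J + 1) L' 0 = 0 := by
    rw [rowIp_comm a b L (J + 1) L' 0]
    calc opE (a + b - 2 * L) J (J + 1) * rowIp a b L' 0 L (J + 1)
        = ∑ M ∈ range (a + 1), ∑ k ∈ range (b + 1),
            coup a b L' 0 M k * ((∑ M' ∈ range (a + 1), coup a b L J M' k * opE a M' M) +
              ∑ k' ∈ range (b + 1), coup a b L J M k' * opE b k' k) := by
          rw [rowIp, mul_sum]
          refine sum_congr rfl fun M _ => ?_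
          rw [mul_sum]
          refine sum_congr rfl fun k _ => ?_
          rw [← coup_raise ha hb J M k, sum_opE_left _ _ _ _ le_rfl]
          ring
      _ = ∑ M ∈ range (a + 1), ∑ k ∈ range (b + 1),
            ((∑ M' ∈ range (a + 1), coup a b L' 0 M' k * opE a M M') +
              ∑ k' ∈ range (b + 1), coup a b L' 0 M k' * opE b k k') * coup a b L J M k :=
          (adjoint_step a b _ _).symm
      _ = 0 := by
          refine sum_eq_zero fun M _ => sum_eq_zero fun k _ => ?_
          rw [← coup_lower ha' hb' 0 M k, sum_eq_zero fun x _ => ?_, zero_mul]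
          rw [opE, if_neg (by omega), zero_mul]
  refine (mul_eq_zero.1 h).resolve_left ?_
  rw [opE_eq, if_pos hJ]
  exact (Real.sqrt_pos.2 (mul_pos (by positivity) (by exact_mod_cast Nat.sub_pos_of_lt hJ))).ne'

theorem opE_ne_zero {n J : ℕ} (h : J < n) : opE n J (J + 1) ≠ 0 := by
  rw [opE_eq, if_pos h]
  exact (Real.sqrt_pos.2 (mul_pos (by positivity) (by exact_mod_cast Nat.sub_pos_of_lt h))).ne'

/-- Different channels are orthogonal. -/
theorem rowIp_ne {a b : ℕ} : ∀ {L L' J J' : ℕ}, L ≤ a → L ≤ b → L' ≤ a → L' ≤ b → L < L' →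
    J ≤ a + b - 2 * L → J' ≤ a + b - 2 * L' → rowIp a b L J L' J' = 0 := by
  intro L L' J J' ha hb ha' hb' hlt hJ hJ'
  induction J' generalizing J with
  | zero =>
    cases J with
    | zero =>
      refine sum_eq_zero fun M _ => sum_eq_zero fun k _ => ?_
      by_cases h : M + k = 0 + L
      · rw [coup_eq_zero_of_weight (a := a) (b := b) (L := L') (J := 0) (by omega), mul_zero]
      · rw [coup_eq_zero_of_weight h, zero_mul]
    | succ J => exact rowIp_top ha hb ha' hb' (by omega)
  | succ J' ih =>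
    cases J with
    | zero =>
      refine sum_eq_zero fun M _ => sum_eq_zero fun k _ => ?_
      by_cases h : M + k = 0 + L
      · rw [coup_eq_zero_of_weight (a := a) (b := b) (L := L') (J := J' + 1) (by omega), mul_zero]
      · rw [coup_eq_zero_of_weight h, zero_mul]
    | succ J =>
      have := rowIp_step ha hb ha' hb' J J'
      rw [ih (by omega) (by omega), mul_zero] at this
      exact (mul_eq_zero.1 this.symm).resolve_left (opE_ne_zero (by omega))

theorem rowIp_self {a b L : ℕ} (ha : L ≤ a) (hb : L ≤ b) :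
    ∀ J, J ≤ a + b - 2 * L → rowIp a b L J L J = 1 := by
  intro J
  induction J with
  | zero =>
    intro _
    have hc : ∀ i ∈ range (L + 1), coef L (a - L) (b - L) (i : ℤ) ((L - i : ℕ) : ℤ) =
        (-1) ^ i * (L.choose i : ℤ) := by
      intro i hi
      have hi' : i ≤ L := Nat.lt_succ_iff.1 (mem_range.1 hi)
      rw [coef, sum_eq_single i (fun j _ hj => ?_) (fun h => absurd hi h)]
      · simp [Vale.Agent.P359.Rep.chz, Nat.cast_sub hi']
      · rcases lt_or_gt_of_ne hj with h | h
        · rw [Vale.Agent.P359.Rep.chz_neg (b - L)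
            (show ((L - i : ℕ) : ℤ) + j - L < 0 by omega)]; simp
        · rw [Vale.Agent.P359.Rep.chz_neg (a - L) (show (i : ℤ) - j < 0 by omega)]; simp
    have hN : 0 < coupN a b L := coupN_pos ha hb
    calc rowIp a b L 0 L 0
        = ∑ M ∈ range (a + 1), if M ≤ L then coup a b L 0 M (L - M) ^ 2 else 0 := by
          refine sum_congr rfl fun M _ => ?_
          by_cases hM : M ≤ L
          · rw [if_pos hM, sum_eq_single (L - M) (fun k _ hk => ?_) (fun h => ?_), sq]
            · rw [coup_eq_zero_of_weight (by omega), zero_mul]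
            · exact absurd (mem_range.2 (by omega)) h
          · rw [if_neg hM]
            exact sum_eq_zero fun k _ => by rw [coup_eq_zero_of_weight (by omega), zero_mul]
      _ = ∑ M ∈ range (L + 1), coup a b L 0 M (L - M) ^ 2 := by
          rw [← sum_filter]
          refine sum_congr ?_ fun _ _ => rfl
          ext M
          simp only [mem_filter, mem_range]
          omega
      _ = (∑ i ∈ range (L + 1),
            (L.choose i : ℝ) ^ 2 / ((a.choose i : ℝ) * (b.choose (L - i) : ℝ))) / coupN a b L := by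
          rw [sum_div]
          refine sum_congr rfl fun i hi => ?_
          have hi' : i ≤ L := Nat.lt_succ_iff.1 (mem_range.1 hi)
          rw [coup_eq a b L 0 i (L - i) ha hb, if_pos (by omega), hc i hi, div_pow, mul_pow,
            mul_pow, mul_pow, sqC, sqC, sqC, Real.sq_sqrt (Nat.cast_nonneg _),
            Real.sq_sqrt (Nat.cast_nonneg _), Real.sq_sqrt (Nat.cast_nonneg _),
            Real.sq_sqrt hN.le, Nat.choose_zero_right]
          push_cast
          rw [mul_pow, ← pow_mul, mul_comm i 2, pow_mul, neg_one_sq, one_pow, one_mul, one_mul,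
            div_div]
      _ = 1 := div_self hN.ne'
  | succ J ih =>
    intro hJ
    have := rowIp_step ha hb ha hb J J
    rw [ih (by omega), mul_one] at this
    have h2 : opE (a + b - 2 * L) J (J + 1) * rowIp a b L (J + 1) L (J + 1) =
        opE (a + b - 2 * L) J (J + 1) * 1 := by rw [mul_one]; exact this.symm
    exact mul_left_cancel₀ (opE_ne_zero (show J < _ by omega)) h2

theorem coup_orth {a b L L' J J' : ℕ} (ha : L ≤ a) (hb : L ≤ b) :
    ∑ M ∈ range (a + 1), ∑ k ∈ range (b + 1), coup a b L J M k * coup a b L' J' M k =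
      if L = L' ∧ J = J' ∧ J ≤ a + b - 2 * L then 1 else 0 := by
  show rowIp a b L J L' J' = _
  by_cases hJ : J ≤ a + b - 2 * L
  swap
  · rw [if_neg fun h => hJ h.2.2]
    exact sum_eq_zero fun M _ => sum_eq_zero fun k _ => by
      rw [coup_eq_zero_of_fst (by omega), zero_mul]
  by_cases hL' : L' ≤ a ∧ L' ≤ b ∧ J' ≤ a + b - 2 * L'
  swap
  · rw [if_neg]
    swap
    · rintro ⟨rfl, rfl, -⟩
      exact hL' ⟨ha, hb, hJ⟩
    refine sum_eq_zero fun M _ => sum_eq_zero fun k _ => ?_
    by_cases h : L' ≤ a ∧ L' ≤ b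
    · rw [coup_eq_zero_of_fst (a := a) (b := b) (L := L') (J := J') (by omega), mul_zero]
    · rw [show coup a b L' J' M k = 0 from if_neg fun h' => h ⟨h'.1, h'.2.1⟩, mul_zero]
  obtain ⟨ha', hb', hJ'⟩ := hL'
  rcases lt_trichotomy L L' with h | rfl | h
  · rw [if_neg fun h' => h.ne h'.1, rowIp_ne ha hb ha' hb' h hJ hJ']
  · by_cases hJJ : J = J'
    · subst hJJ
      rw [if_pos ⟨rfl, rfl, hJ⟩, rowIp_self ha hb J hJ]
    · rw [if_neg fun h' => hJJ h'.2.1]
      refine sum_eq_zero fun M _ => sum_eq_zero fun k _ => ?_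
      by_cases h : M + k = J + L
      · rw [coup_eq_zero_of_weight (J := J') (by omega), mul_zero]
      · rw [coup_eq_zero_of_weight h, zero_mul]
  · rw [if_neg fun h' => h.ne' h'.1, rowIp_comm, rowIp_ne ha' hb' ha hb h hJ' hJ]

/-- The rows: channels and weights. -/
abbrev Row (a b : ℕ) := (L : Fin (min a b + 1)) × Fin (a + b - 2 * (L : ℕ) + 1)

theorem card_row (a b : ℕ) : Fintype.card (Row a b) = (a + 1) * (b + 1) := by
  rw [Fintype.card_sigma]
  simp only [Fintype.card_fin]
  rw [Fin.sum_univ_eq_sum_range (fun L => a + b - 2 * L + 1)]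
  have key : ∀ m, m ≤ min a b →
      (∑ L ∈ range (m + 1), (a + b - 2 * L + 1)) + m * (m + 1) = (m + 1) * (a + b + 1) := by
    intro m hm
    induction m with
    | zero => simp
    | succ m ih =>
      have := ih (by omega)
      obtain ⟨t, ht⟩ : ∃ t, a + b = 2 * (m + 1) + t := ⟨a + b - 2 * (m + 1), by omega⟩
      rw [sum_range_succ, show a + b - 2 * (m + 1) + 1 = t + 1 by omega]
      rw [ht] at this ⊢
      linarith
  have h := key (min a b) le_rfl
  rcases le_total a b with hab | hab
  · rw [min_eq_left hab] at h ⊢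
    have : (a + 1) * (a + b + 1) = (a + 1) * (b + 1) + a * (a + 1) := by ring
    omega
  · rw [min_eq_right hab] at h ⊢
    have : (b + 1) * (a + b + 1) = (a + 1) * (b + 1) + b * (b + 1) := by ring
    omega

theorem coup_complete {a b M k M' k' : ℕ} (hM : M ≤ a) (hk : k ≤ b) :
    ∑ L ∈ range (b + 1), ∑ J ∈ range (a + b - 2 * L + 1),
        coup a b L J M k * coup a b L J M' k' =
      if M = M' ∧ k = k' then 1 else 0 := by
  classical
  let C : Matrix (Row a b) (Fin (a + 1) × Fin (b + 1)) ℝ :=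
    Matrix.of fun r x => coup a b (r.1 : ℕ) (r.2 : ℕ) (x.1 : ℕ) (x.2 : ℕ)
  have hC : C * C.transpose = 1 := by
    ext ⟨L, J⟩ ⟨L', J'⟩
    have hL : (L : ℕ) ≤ min a b := Nat.lt_succ_iff.1 L.2
    simp only [Matrix.mul_apply, Matrix.transpose_apply, C, Matrix.of_apply,
      Fintype.sum_prod_type, Matrix.one_apply]
    rw [Fin.sum_univ_eq_sum_range (fun M => ∑ k : Fin (b + 1),
      coup a b L J M k * coup a b L' J' M k)]
    rw [sum_congr rfl fun M _ => Fin.sum_univ_eq_sum_range
      (fun k => coup a b L J M k * coup a b L' J' M k) (b + 1)]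
    rw [coup_orth (by omega) (by omega)]
    refine if_congr ⟨fun h => ?_, fun h => ?_⟩ rfl rfl
    · obtain rfl : L = L' := Fin.ext h.1
      rw [show J = J' from Fin.ext h.2.1]
    · cases h
      exact ⟨rfl, rfl, Nat.lt_succ_iff.1 J.2⟩
  have hcard : Fintype.card (Row a b) = Fintype.card (Fin (a + 1) × Fin (b + 1)) := by
    rw [card_row, Fintype.card_prod, Fintype.card_fin, Fintype.card_fin]
  have hC' : C.transpose * C = 1 :=
    (Matrix.mul_eq_one_comm_of_equiv (Fintype.equivOfCardEq hcard)).1 hC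
  by_cases hM' : M' ≤ a ∧ k' ≤ b
  swap
  · rw [if_neg]
    · refine sum_eq_zero fun L _ => sum_eq_zero fun J _ => ?_
      rcases not_and_or.1 hM' with h | h
      · rw [coup_eq_zero_of_left (M := M') (by omega), mul_zero]
      · rw [coup_eq_zero_of_right (k := k') (by omega), mul_zero]
    · rintro ⟨rfl, rfl⟩
      exact hM' ⟨hM, hk⟩
  have e := congrFun (congrFun hC' (⟨M, Nat.lt_succ_of_le hM⟩, ⟨k, Nat.lt_succ_of_le hk⟩))
    (⟨M', Nat.lt_succ_of_le hM'.1⟩, ⟨k', Nat.lt_succ_of_le hM'.2⟩)
  simp only [Matrix.mul_apply, Matrix.transpose_apply, C, Matrix.of_apply, Fintype.sum_sigma,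
    Matrix.one_apply, Prod.mk.injEq, Fin.mk.injEq] at e
  rw [← e, Fin.sum_univ_eq_sum_range
    (fun L => ∑ J : Fin (a + b - 2 * L + 1), coup a b L J M k * coup a b L J M' k')]
  rw [sum_congr rfl fun L _ => Fin.sum_univ_eq_sum_range
    (fun J => coup a b L J M k * coup a b L J M' k') (a + b - 2 * L + 1)]
  refine (sum_subset (range_mono (by omega)) fun L _ hL => sum_eq_zero fun J _ => ?_).symm
  rw [mem_range, not_lt] at hL
  simp only
  rw [show coup a b L J M k = 0 from if_neg fun h => by omega, zero_mul]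

end P359
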