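import Mathlib

/-!
P359, module Rep: positivity is decided on the kernel of a nilpotent operator that commutes with
the form.
-/

noncomputable section

namespace Vale.Agent.P359.Rep

open Matrix
open scoped ComplexOrder

/-- A symmetric operator that commutes with a nilpotent one on a common invariant subspace is
nonnegative there as soon as it is nonnegative on the kernel of the nilpotent one. -/
theorem nonneg_of_ker {V : Type*} [NormedAddCommGroup V] [InnerProductSpace ℂ V]
    [FiniteDimensional ℂ V] {Z E : V →ₗ[ℂ] V} (hZ : Z.IsSymmetric) (hE : IsNilpotent E)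
    (hcomm : Z ∘ₗ E = E ∘ₗ Z) {W : Submodule ℂ V} (hWZ : ∀ w ∈ W, Z w ∈ W)
    (hWE : ∀ w ∈ W, E w ∈ W) (h : ∀ w ∈ W, E w = 0 → 0 ≤ (inner ℂ (Z w) w).re) :
    ∀ w ∈ W, 0 ≤ (inner ℂ (Z w) w).re := by
  intro w hw
  set T := Z.restrict hWZ with hT
  have hTs : T.IsSymmetric := hZ.restrict_invariant hWZ
  let b := hTs.eigenvectorBasis rfl
  let ev := hTs.eigenvalues rfl
  obtain ⟨n, hn⟩ := hE
  have hev : ∀ i, 0 ≤ ev i := by
    intro i
    set x : V := ((b i : W) : V) with hx
    have hx0 : x ≠ 0 := fun h0 => b.orthonormal.ne_zero i (Subtype.ext h0)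
    have hZx : Z x = (ev i : ℂ) • x := congrArg Subtype.val (hTs.apply_eigenvectorBasis rfl i)
    -- the last nonzero power of `E` applied to `x`
    have hex : ∃ k, (E ^ k) x = 0 := ⟨n, by rw [hn]; rfl⟩
    classical
    set k := Nat.find hex
    have hk : (E ^ k) x = 0 := Nat.find_spec hex
    have hk0 : k ≠ 0 := fun h0 => hx0 (by simpa [h0] using hk)
    obtain ⟨m, hm⟩ := Nat.exists_eq_succ_of_ne_zero hk0
    set y := (E ^ m) x with hy
    have hy0 : y ≠ 0 := Nat.find_min hex (show m < k by omega)
    have hEy : E y = 0 := by rwa [hm, pow_succ'] at hk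
    have hyW : y ∈ W := by
      have : ∀ j, (E ^ j) x ∈ W := fun j => by
        induction j with
        | zero => exact (b i).2
        | succ j ih => rw [pow_succ']; exact hWE _ ih
      exact this m
    have hZy : Z y = (ev i : ℂ) • y := by
      have hc : ∀ j, Z ((E ^ j) x) = (ev i : ℂ) • (E ^ j) x := fun j => by
        induction j with
        | zero => simpa using hZx
        | succ j ih =>
          rw [pow_succ']
          show Z (E ((E ^ j) x)) = (ev i : ℂ) • E ((E ^ j) x)
          rw [show Z (E ((E ^ j) x)) = E (Z ((E ^ j) x)) from LinearMap.congr_fun hcomm _, ih,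
            map_smul]
      exact hc m
    have := h y hyW hEy
    rw [hZy, inner_smul_left, Complex.conj_ofReal, Complex.re_ofReal_mul,
      inner_self_eq_norm_sq_to_K] at this
    have hpos : 0 < ‖y‖ := norm_pos_iff.2 hy0
    norm_cast at this
    exact (mul_nonneg_iff_of_pos_right (pow_pos hpos 2)).1 this
  set v : W := ⟨w, hw⟩
  have e : inner ℂ (Z w) w = inner ℂ (T v) v := rfl
  rw [e, ← b.repr.inner_map_map, EuclideanSpace.inner_eq_star_dotProduct]
  simp only [dotProduct, Pi.star_apply, Complex.re_sum]
  refine Finset.sum_nonneg fun i _ => ?_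
  rw [hTs.eigenvectorBasis_apply_self_apply rfl v i]
  change 0 ≤ ((b.repr v) i * star ((ev i : ℂ) * (b.repr v) i)).re
  simp only [Complex.star_def, map_mul, Complex.conj_ofReal, Complex.mul_re, Complex.mul_im,
    Complex.conj_re, Complex.conj_im, Complex.ofReal_re, Complex.ofReal_im]
  have := hev i
  nlinarith [mul_nonneg this (mul_self_nonneg ((b.repr v) i).re),
    mul_nonneg this (mul_self_nonneg ((b.repr v) i).im)]

end Vale.Agent.P359.Rep
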